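import Mathlib
import Vale.Agent.P266.Main

/-! The Lipman–Zariski property for abelian covers of smooth varieties. -/

namespace Vale.Agent.Results.P266.AbelianCovers

universe u v w

theorem result :
    ∀ (k : Type u) [Field k] [CharZero k] [IsAlgClosed k] (A : Type v) [CommRing A] [IsDomain A]
      [IsIntegrallyClosed A] [Algebra k A] [Algebra.FiniteType k A]
      (G : Type w) [Group G] [Finite G] [MulSemiringAction G A] [SMulCommClass G k A],
    (∀ (n : Ideal A) [n.IsMaximal],
      (∀ g h : G, (∀ a ∈ n, g • a ∈ n) → (∀ a ∈ n, h • a ∈ n) → g * h = h * g) →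
      IsRegularLocalRing (Localization.AtPrime (n.under (FixedPoints.subalgebra k A G))) →
      Module.Free (Localization.AtPrime n) (LocalizedModule n.primeCompl (Derivation k A A)) →
      IsRegularLocalRing (Localization.AtPrime n)) ∧
    ((∀ g h : G, g * h = h * g) →
      (∀ (P : Ideal (FixedPoints.subalgebra k A G)) [P.IsMaximal],
        IsRegularLocalRing (Localization.AtPrime P)) →
      Module.Projective A (Derivation k A A) →
      ∀ (n : Ideal A) [n.IsMaximal], IsRegularLocalRing (Localization.AtPrime n)) := by
  intro k _ _ _ A _ _ _ _ _ G _ _ _ _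
  refine ⟨fun n hn hcomm hreg hfree => ?_, fun hcomm hreg hproj n hn => ?_⟩
  · exact Vale.Agent.P266.regular_of_abelian_stab n hcomm hreg
  · haveI : Algebra.IsInvariant (FixedPoints.subalgebra k A G) A G :=
      ⟨fun a ha => ⟨⟨a, ha⟩, rfl⟩⟩
    haveI : Algebra.IsIntegral (FixedPoints.subalgebra k A G) A :=
      Algebra.IsInvariant.isIntegral _ A G
    haveI : (n.under (FixedPoints.subalgebra k A G)).IsMaximal :=
      Ideal.isMaximal_comap_of_isIntegral_of_isMaximal n
    haveI : Module.Finite A (Derivation k A A) := Vale.Agent.P266.finite_derivation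
    haveI : Module.Projective (Localization.AtPrime n)
        (LocalizedModule n.primeCompl (Derivation k A A)) :=
      Module.projective_of_isLocalizedModule n.primeCompl
        (LocalizedModule.mkLinearMap n.primeCompl (Derivation k A A))
    haveI : Module.Finite (Localization.AtPrime n)
        (LocalizedModule n.primeCompl (Derivation k A A)) :=
      Module.Finite.of_isLocalizedModule n.primeCompl
        (LocalizedModule.mkLinearMap n.primeCompl (Derivation k A A))
    haveI : Module.Free (Localization.AtPrime n)
        (LocalizedModule n.primeCompl (Derivation k A A)) :=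
      Module.free_of_flat_of_isLocalRing
    exact Vale.Agent.P266.regular_of_abelian_stab n (fun g h _ _ => hcomm g h) (hreg _)

end Vale.Agent.Results.P266.AbelianCovers
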